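import Vale.Agent.P310T43.Alg
import Vale.Agent.P310.WLDefs

/-!
# P310: the refinement algorithm decides Weisfeiler-Leman equivalence
-/

namespace Vale.Agent.P310T43

open Function Finset Vale.Agent.P310

theorem iterate_stable {δ : Type} {f : List δ → List δ} (hf : ∀ R, (f R).Sublist R) :
    ∀ (l : ℕ) (R : List δ), R.length ≤ l → ∀ m, l ≤ m → f^[m] R = f^[l] R := by
  intro l
  induction l with
  | zero =>
    intro R hR m _
    have h : f R = R := (hf R).eq_of_length_le (by omega)
    rw [iterate_fixed h, iterate_fixed h]
  | succ l ih =>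
    intro R hR m hm
    by_cases h : f R = R
    · rw [iterate_fixed h, iterate_fixed h]
    · obtain ⟨m, rfl⟩ : ∃ m', m = m' + 1 := ⟨m - 1, by omega⟩
      have : (f R).length < R.length :=
        lt_of_not_ge fun h' => h ((hf R).eq_of_length_le h')
      rw [iterate_succ_apply, iterate_succ_apply, ih (f R) (by omega) m (by omega)]

theorem map_eq_iff {ι σ : Type} [Fintype ι] (f g : ι → σ) :
    (univ : Finset ι).val.map f = (univ : Finset ι).val.map g ↔
      ∀ z, {y | f y = f z}.ncard = {y | g y = f z}.ncard := by
  classical
  have e : ∀ (h : ι → σ) (a : σ), ((univ : Finset ι).val.map h).count a =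
      {y | h y = a}.ncard := fun h a => by
    rw [Multiset.count_map, Set.ncard_eq_toFinset_card', Set.toFinset_ofPred]
    simp only [eq_comm]
    rfl
  refine ⟨fun h z => by rw [← e, ← e, h], fun h => ?_⟩
  refine Multiset.eq_of_le_of_card_le (Multiset.le_iff_count.2 fun a => ?_) (by simp)
  by_cases ha : a ∈ (univ : Finset ι).val.map f
  · obtain ⟨z, -, rfl⟩ := Multiset.mem_map.1 ha
    rw [e, e, h]
  · rw [Multiset.count_eq_zero_of_notMem ha]
    exact Nat.zero_le _

theorem length_filter_eq {ι σ : Type} [Fintype ι] {e : ι → σ} (he : Injective e) {L : List σ}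
    (hL : L.Nodup) (hm : ∀ t, t ∈ L ↔ ∃ x, e x = t) {P : σ → Bool} {Q : ι → Prop}
    (h : ∀ x, P (e x) = true ↔ Q x) : (L.filter P).length = {x | Q x}.ncard := by
  classical
  rw [Set.ncard_eq_toFinset_card', Set.toFinset_ofPred,
    ← List.toFinset_card_of_nodup (hL.filter _), ← card_image_of_injective _ he]
  congr 1
  ext t
  simp only [List.mem_toFinset, List.mem_filter, hm, mem_image, mem_filter, mem_univ, true_and]
  constructor
  · rintro ⟨⟨x, rfl⟩, hx⟩
    exact ⟨x, (h x).1 hx, rfl⟩
  · rintro ⟨x, hx, rfl⟩
    exact ⟨⟨x, rfl⟩, (h x).2 hx⟩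

theorem all_range {k : ℕ} {P : ℕ → Bool} :
    (List.range k).all P = true ↔ ∀ i : Fin k, P i = true := by
  simp only [List.all_eq_true, List.mem_range]
  exact ⟨fun h i => h i i.2, fun h i hi => h ⟨i, hi⟩⟩

/-- all tuples -/
def tupV (V : List ℕ) : ℕ → List (List ℕ)
  | 0 => [[]]
  | j + 1 => ext V (tupV V j)

theorem mem_tup {V : List ℕ} {j : ℕ} {t : List ℕ} :
    t ∈ tupV V j ↔ t.length = j ∧ ∀ a ∈ t, a ∈ V := by
  induction j generalizing t with
  | zero =>
    cases t <;> simp [tupV]
  | succ j ih =>
    simp only [tupV, ext, List.mem_flatMap, List.mem_map, ih]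
    constructor
    · rintro ⟨s, ⟨h1, h2⟩, a, ha, rfl⟩
      exact ⟨by simp [h1], by simpa [ha] using h2⟩
    · rintro ⟨h1, h2⟩
      cases t with
      | nil => simp at h1
      | cons a s =>
        exact ⟨s, ⟨by simpa using h1, fun b hb => h2 b (by simp [hb])⟩, a, h2 a (by simp), rfl⟩

theorem nodup_tup {V : List ℕ} (hV : V.Nodup) (j : ℕ) : (tupV V j).Nodup := by
  induction j with
  | zero => simp [tupV]
  | succ j ih =>
    refine List.nodup_flatMap.2 ⟨fun t _ => hV.map fun a b h => (List.cons.inj h).1, ?_⟩
    refine ih.imp fun {s t} h => ?_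
    simp only [onFun, List.disjoint_left, List.mem_map]
    rintro _ ⟨a, -, rfl⟩ ⟨b, -, hb⟩
    exact h (List.cons.inj hb).2.symm

theorem length_tup (V : List ℕ) (j : ℕ) : (tupV V j).length = V.length ^ j := by
  induction j with
  | zero => simp [tupV]
  | succ j ih => simp [tupV, ext, List.length_flatMap, ih, pow_succ]

variable {n k : ℕ}

/-- the code of a tuple -/
def code (x : Fin k → Fin n) : List ℕ := List.ofFn fun i => (x i : ℕ)

theorem code_inj : Injective (code (k := k) (n := n)) := fun _ _ h =>
  funext fun i => Fin.ext (congrFun (List.ofFn_injective h) i)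

theorem mem_tup_iff (t : List ℕ) :
    t ∈ tupV (List.range n) k ↔ ∃ x : Fin k → Fin n, code x = t := by
  rw [mem_tup]
  constructor
  · rintro ⟨rfl, h⟩
    exact ⟨fun i => ⟨t[i], List.mem_range.1 (h _ (List.getElem_mem _))⟩, by simp [code]⟩
  · rintro ⟨x, rfl⟩
    simp [code]

theorem getD_code (x : Fin k → Fin n) (i : Fin k) : (code x).getD i 0 = x i := by
  simp [code]

theorem upd_code (b : Bool) (x : Fin k → Fin n) (i : Fin k) (y : Fin n) :
    upd (List.range k) (b, code x) i y = (b, code (update x i y)) := by
  refine Prod.ext rfl (List.ext_getElem (by simp [upd, code]) fun j h1 h2 => ?_)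
  have hj : j < k := by simpa [code] using h2
  simp only [upd, code, List.getElem_map, List.getElem_range, List.getElem_ofFn]
  by_cases h : j = i
  · subst h
    simp
  · rw [if_neg h, update_of_ne fun e => h (congrArg Fin.val e)]
    simp [hj]

theorem getElem?_flat {σ : Type} (f : Fin n → Fin n → σ) (l : List (Fin n)) (p : ℕ)
    (hp : p < l.length) (q : Fin n) (r : List σ) :
    ((l.flatMap fun i => (List.finRange n).map (f i)) ++ r)[p * n + q]? = some (f l[p] q) := by
  induction l generalizing p with
  | nil => simp at hp
  | cons a l ih =>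
    rw [List.flatMap_cons, List.append_assoc]
    cases p with
    | zero => rw [List.getElem?_append_left (by simp)]; simp
    | succ p =>
      rw [List.getElem?_append_right (by simp; nlinarith)]
      have : (p + 1) * n + q - ((List.finRange n).map (f a)).length = p * n + q := by
        simp [add_mul]
        omega
      rw [this, ih p (by simpa using hp)]
      simp

theorem length_adjBits (G : SimpleGraph (Fin n)) : (adjBits G).length = n * n := by
  simp [adjBits, List.length_flatMap]

variable (G H : SimpleGraph (Fin n))

/-- the context of an instance -/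
noncomputable def cx (k : ℕ) : Cx := (List.range k, List.range n, inputWord G H)

/-- colours in both graphs -/
def col (r : ℕ) (b : Bool) (x : Fin k → Fin n) : Color k r := wl (bif b then H else G) k r x

theorem adj_code (b : Bool) (x : Fin k → Fin n) (i j : Fin k) :
    adj (cx G H k) (b, code x) i j = true ↔ (bif b then H else G).Adj (x i) (x j) := by
  classical
  simp only [adj, cx, getD_code, List.length_range, inputWord]
  rw [List.getD_eq_getElem?_getD]
  cases b
  · rw [cond_false, zero_add, adjBits, getElem?_flat _ _ _ (by simp)]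
    simp
  · rw [cond_true, List.getElem?_append_right (by rw [length_adjBits]; omega), length_adjBits,
      Nat.add_sub_cancel_left, ← List.append_nil (adjBits H), adjBits,
      getElem?_flat _ _ _ (by simp)]
    simp

/-- the list `R` is the relation of having the same colour after `r` rounds -/
def Inv (k r : ℕ) (R : List (It × It)) : Prop :=
  ∀ (b b' : Bool) (x x' : Fin k → Fin n),
    ((b, code x), (b', code x')) ∈ R ↔ col G H r b x = col G H r b' x'

theorem inv_zero : Inv G H k 0 (rel0 (cx G H k) (tupV (List.range n) k)) := by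
  intro b b' x x'
  have hm : ∀ (b : Bool) (x : Fin k → Fin n), (b, code x) ∈ items (tupV (List.range n) k) := by
    intro b x
    have := (mem_tup_iff (code x)).2 ⟨x, rfl⟩
    cases b <;> simp [items, this]
  rw [rel0, List.mem_filter, and_iff_right (List.mem_flatMap.2
    ⟨_, hm b x, List.mem_map.2 ⟨_, hm b' x', rfl⟩⟩)]
  have e : (cx G H k).1 = List.range k := rfl
  have e' : ∀ i j : Fin k, adj (cx G H k) (b, code x) i j = adj (cx G H k) (b', code x') i j ↔
      ((bif b then H else G).Adj (x i) (x j) ↔ (bif b' then H else G).Adj (x' i) (x' j)) :=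
    fun i j => by rw [Bool.eq_iff_iff, adj_code, adj_code]
  simp only [atom, e, all_range, Bool.and_eq_true, decide_eq_true_eq, getD_code, decide_eq_decide,
    e', Fin.val_inj]
  refine Iff.trans ?_ funext_iff.symm
  refine forall_congr' fun i => Iff.trans ?_ funext_iff.symm
  refine forall_congr' fun j => ?_
  simp only [col, wl, Prod.mk.injEq, eq_iff_iff]

theorem cnt_eq {r : ℕ} {R : List (It × It)} (h : Inv G H k r R) (b b' : Bool)
    (x x' : Fin k → Fin n) (z : Fin n) : cnt (cx G H k) R (b, code x) (b', code x') z =
      {y | (fun i => col G H r b (update x i y)) =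
        fun i => col G H r b' (update x' i z)}.ncard := by
  refine length_filter_eq Fin.val_injective List.nodup_range (fun t => ?_) fun y => ?_
  · rw [List.mem_range]
    exact ⟨fun ht => ⟨⟨t, ht⟩, rfl⟩, fun ⟨y, hy⟩ => hy ▸ y.2⟩
  · have e : (cx G H k).1 = List.range k := rfl
    simp only [e, all_range, upd_code, decide_eq_true_eq, h _ _ _ _, funext_iff]

theorem inv_succ {r : ℕ} {R : List (It × It)} (h : Inv G H k r R) :
    Inv G H k (r + 1) (ref (cx G H k) R) := by
  intro b b' x x'
  have e : (cx G H k).2.1 = List.range n := rfl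
  rw [ref, List.mem_filter, h, e, all_range]
  simp only [decide_eq_true_eq, cnt_eq G H h]
  rw [← map_eq_iff (fun y i => col G H r b (update x i y)) fun y i => col G H r b' (update x' i y)]
  exact (Prod.ext_iff (x := (col G H (r + 1) b x : Color k r × _))
    (y := (col G H (r + 1) b' x' : Color k r × _))).symm

theorem test_iff {r : ℕ} {R : List (It × It)} (h : Inv G H k r R) :
    test (tupV (List.range n) k) R = true ↔ (univ : Finset (Fin k → Fin n)).val.map (wl G k r) =
      (univ : Finset (Fin k → Fin n)).val.map (wl H k r) := by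
  have e : ∀ (b : Bool) (z : Fin k → Fin n), cntL (tupV (List.range n) k) R b (code z) =
      {y | col G H r b y = col G H r false z}.ncard := fun b z => by
    refine length_filter_eq code_inj (nodup_tup List.nodup_range k) mem_tup_iff fun y => ?_
    rw [decide_eq_true_eq, h]
  rw [map_eq_iff, test, List.all_eq_true]
  simp only [mem_tup_iff, forall_exists_index, forall_apply_eq_imp_iff, decide_eq_true_eq, e]
  rfl

theorem dec_iff : decC (cx G H k) (tupV (List.range n) k) = true ↔ WLEquiv k G H := by
  set R := rel0 (cx G H k) (tupV (List.range n) k) with hR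
  have hi : ∀ r, Inv G H k r ((ref (cx G H k))^[r] R) := fun r => by
    induction r with
    | zero => exact inv_zero G H
    | succ r ih => rw [iterate_succ_apply']; exact inv_succ G H ih
  rw [decC, ← hR, test_iff G H (hi _)]
  refine ⟨fun h r => ?_, fun h => h _⟩
  rcases le_total r R.length with hr | hr
  · refine Nat.decreasingInduction (motive := fun r _ =>
      (univ : Finset (Fin k → Fin n)).val.map (wl G k r) =
        (univ : Finset (Fin k → Fin n)).val.map (wl H k r)) (fun j _ hj => ?_) h hr
    have := congrArg (Multiset.map fun a : Color k (j + 1) => (a.1 : Color k j)) hj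
    rw [Multiset.map_map, Multiset.map_map] at this
    exact this
  · rw [← test_iff G H (hi r), iterate_stable (f := ref (cx G H k))
      (fun _ => List.filter_sublist) _ R le_rfl r hr,
      test_iff G H (hi _)]
    exact h

/-- all `k`-tuples of vertices -/
def tup (n : ℕ) : ℕ → List (List ℕ)
  | 0 => [[]]
  | k + 1 => (tup n k).flatMap fun t => (List.range n).map (· :: t)

theorem tup_eq (n k : ℕ) : tup n k = tupV (List.range n) k := by
  induction k with
  | zero => rfl
  | succ k ih => rw [tup, ih]; rfl

theorem dec_spec (k : ℕ) : dec ⟨inputWord G H⟩ (tup n k) = true ↔ WLEquiv k G H := by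
  have hx : (inputWord G H).length = 2 * (n * n) := by
    rw [inputWord, List.length_append, length_adjBits, length_adjBits, two_mul]
  rw [← dec_iff, tup_eq, dec]
  simp only [hx, P310Z.unum_eq]
  cases h : tupV (List.range n) k with
  | nil => simp [decC, test]
  | cons t l =>
    have : t.length = k := (mem_tup.1 (h ▸ List.mem_cons_self : t ∈ tupV (List.range n) k)).1
    rw [List.headD_cons, this]
    rfl

end Vale.Agent.P310T43
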