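import Vale.Agent.P310T.Defs
import Vale.Agent.Lib.PolyTime.TM2
import Vale.Agent.Lib.PolyTime.Run

/-!
# P310: stack programs as multitape Turing machines (one tape per stack)
-/

namespace Vale.Agent.P310T43

open Function Vale.Agent.Lib.PolyTime Vale.Agent.Lib.PolyTime.ToTM2 Vale.Agent.P310T

variable (N : ℕ) (R : Set (List Prog)) (h0 : [] ∈ R)

/-- scanned symbols -/
abbrev Sy := Fin (N + 1) → Option Bool

/-- change nothing -/
def stay (a : Sy N) : Fin (N + 1) → Option Bool × Move := fun i => (a i, .stay)

/-- the transition function -/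
noncomputable def dl : List Prog → Bool → Sy N →
    Option ((R × Bool) × (Fin (N + 1) → Option Bool × Move))
  | [], true, _ => none
  | [], false, a => if a (stk N 1) = some true then some ((lab R h0 [], true), stay N a) else none
  | .skip :: ks, _, a => some ((lab R h0 ks, false), stay N a)
  | .push i b :: ks, false, a => some ((lab R h0 (.push i b :: ks), true),
      update (stay N a) (stk N i) (a (stk N i), .left))
  | .push i b :: ks, true, a => some ((lab R h0 ks, false),
      update (stay N a) (stk N i) (some b, .stay))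
  | .pop i :: ks, _, a => some ((lab R h0 ks, false),
      update (stay N a) (stk N i) (a (stk N i), if a (stk N i) = none then .stay else .right))
  | .query i j :: ks, false, a => some ((lab R h0 (.query i j :: ks), true),
      update (stay N a) (stk N j) (a (stk N j), .left))
  | .query _ j :: ks, true, a => some ((lab R h0 ks, false),
      update (stay N a) (stk N j) (some false, .stay))
  | .seq p q :: ks, _, a => some ((lab R h0 (p :: q :: ks), false), stay N a)
  | .ite i p q r :: ks, _, a => some ((lab R h0 (match a (stk N i) with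
      | none => p :: ks
      | some false => q :: ks
      | some true => r :: ks), false), stay N a)
  | .loop i p :: ks, _, a => some ((lab R h0 (match a (stk N i) with
      | none => ks
      | some _ => p :: .loop i p :: ks), false), stay N a)

/-- the machine -/
noncomputable abbrev mach (hR : R.Finite) (p : Prog) : TM where
  Sym := Option Bool
  Tape := Fin (N + 1)
  State := R × Bool
  finSym := inferInstance
  finTape := inferInstance
  finState := haveI := hR.to_subtype; inferInstance
  oneWay := false
  blank := none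
  bit := some
  bit_inj := Option.some_injective _
  bit_ne_blank := fun _ => by simp
  inp := 0
  start := (lab R h0 [p], false)
  accept := {q | q.2 = true}
  step := fun q a => dl N R h0 q.1.1 q.2 a

variable {N R h0} {hR : R.Finite} {p₀ : Prog}

/-- the tapes represent the stacks -/
def Rep (c : (mach N R h0 hR p₀).Conf) (s : ℕ → Word) : Prop :=
  ∀ (i : Fin (N + 1)) (j : ℕ), c.tape i (c.head i + j) = (s i)[j]?

theorem Rep.scan {c : (mach N R h0 hR p₀).Conf} {s : ℕ → Word} (h : Rep c s) {i : ℕ}
    (hi : i < N + 1) : c.tape (stk N i) (c.head (stk N i)) = (s i).head? := by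
  have := h (stk N i) 0
  rw [List.head?_eq_getElem?]
  simpa [stk, hi] using this

/-- `c` reaches the continuation `ks` with memory `s` in at most `n` steps -/
def Go (n : ℕ) (c : (mach N R h0 hR p₀).Conf) (ks : List Prog) (s : ℕ → Word) : Prop :=
  ∃ m ≤ n, ∃ d, (mach N R h0 hR p₀).next^[m] c = d ∧ d.state = (lab R h0 ks, false) ∧ Rep d s

theorem Go.trans {n n' : ℕ} {c : (mach N R h0 hR p₀).Conf} {ks ks' : List Prog} {s s' : ℕ → Word}
    (h : Go n c ks s) (h' : ∀ d : (mach N R h0 hR p₀).Conf, d.state = (lab R h0 ks, false) → Rep d s →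
      Go n' d ks' s') : Go (n + n') c ks' s' := by
  obtain ⟨m, a, d, b, e, f⟩ := h
  obtain ⟨m', a', d', b', e', f'⟩ := h' d e f
  exact ⟨m' + m, by omega, d', by rw [iterate_add_apply, b]; exact b', e', f'⟩

theorem Go.mono {n n' : ℕ} {c : (mach N R h0 hR p₀).Conf} {ks : List Prog} {s : ℕ → Word}
    (h : Go n c ks s) (hn : n ≤ n') : Go n' c ks s := by
  obtain ⟨m, a, b⟩ := h
  exact ⟨m, a.trans hn, b⟩

theorem step_eq {c : (mach N R h0 hR p₀).Conf} {l : List Prog} {b : Bool} (hl : l ∈ R)
    (hq : c.state = (lab R h0 l, b)) {q w} (h : dl N R h0 l b (fun i => c.tape i (c.head i)) =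
      some (q, w)) : (mach N R h0 hR p₀).next c = ⟨q,
        fun i => update (c.tape i) (c.head i) (w i).1, fun i => (w i).2.app false (c.head i)⟩ := by
  rw [lab_of_mem hl] at hq
  simp only [TM.next, TM.act, hq, h]

theorem go_stay {c : (mach N R h0 hR p₀).Conf} {l ks : List Prog} {s : ℕ → Word} (hl : l ∈ R)
    (hq : c.state = (lab R h0 l, false)) (hs : Rep c s)
    (h : dl N R h0 l false (fun i => c.tape i (c.head i)) =
      some ((lab R h0 ks, false), stay N fun i => c.tape i (c.head i))) : Go 1 c ks s :=
  ⟨1, le_rfl, _, step_eq hl hq h, rfl, fun i j => by simpa [stay, Move.app] using hs i j⟩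

theorem app_stay (b : Bool) (p : ℤ) : Move.app b .stay p = p := rfl

theorem stk_ne {i : ℕ} (hi : i < N + 1) {j : Fin (N + 1)} (h : j ≠ stk N i) : (j : ℕ) ≠ i :=
  fun e => h (Fin.ext (by simp [stk, hi, e]))

theorem stk_val {i : ℕ} (hi : i < N + 1) : (stk N i : ℕ) = i := by simp [stk, hi]

theorem go_push {c : (mach N R h0 hR p₀).Conf} {l ks : List Prog} {s : ℕ → Word} (hl : l ∈ R)
    (hq : c.state = (lab R h0 l, false)) (hs : Rep c s) {i : ℕ} (hi : i < N + 1) (b : Bool)
    (h1 : ∀ a, dl N R h0 l false a = some ((lab R h0 l, true),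
      update (stay N a) (stk N i) (a (stk N i), .left)))
    (h2 : ∀ a, dl N R h0 l true a = some ((lab R h0 ks, false),
      update (stay N a) (stk N i) (some b, .stay))) : Go 2 c ks (update s i (b :: s i)) := by
  have e1 := step_eq hl hq (h1 _)
  refine ⟨2, le_rfl, _, (congrArg (mach N R h0 hR p₀).next e1).trans (step_eq hl rfl (h2 _)),
    rfl, fun k j => ?_⟩
  rcases eq_or_ne k (stk N i) with rfl | hk
  · rw [stk_val hi, update_self]
    simp only [update_self, update_eq_self, Move.app, Bool.false_eq_true, false_and, if_false]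
    cases j with
    | zero => simp
    | succ j =>
      have := hs (stk N i) j
      rw [stk_val hi] at this
      rw [update_of_ne (by omega), List.getElem?_cons_succ, ← this]
      congr 1
      omega
  · rw [update_of_ne (stk_ne hi hk)]
    simp only [update_of_ne hk]
    simp only [stay, app_stay, update_eq_self]
    simp only [update_of_ne hk, stay, app_stay, update_eq_self]
    exact hs k j

theorem go_pop {c : (mach N R h0 hR p₀).Conf} {ks : List Prog} {s : ℕ → Word} {i : ℕ}
    (hl : .pop i :: ks ∈ R) (hq : c.state = (lab R h0 (.pop i :: ks), false)) (hs : Rep c s)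
    (hi : i < N + 1) : Go 1 c ks (update s i (s i).tail) := by
  refine ⟨1, le_rfl, _, step_eq hl hq rfl, rfl, fun k j => ?_⟩
  rcases eq_or_ne k (stk N i) with rfl | hk
  · rw [stk_val hi, update_self]
    simp only [update_self, update_eq_self]
    simp only [hs.scan hi]
    have h1 := hs (stk N i) j
    have h2 := hs (stk N i) (j + 1)
    rw [stk_val hi] at h1 h2
    cases hw : s i with
    | nil => simpa [hw, Move.app] using h1
    | cons b w =>
      rw [hw] at h2
      simpa [add_assoc, add_comm (1 : ℤ), Move.app] using h2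
  · rw [update_of_ne (stk_ne hi hk)]
    simp only [update_of_ne hk]
    simp only [stay, app_stay, update_eq_self]
    exact hs k j

theorem sim_tm {p : Prog} {s s' : ℕ → Word} {t : ℕ} (h : Eval ∅ p s t s')
    (hb : bounded (N + 1) p) (ks : List Prog) (hp : reach p ks ⊆ R)
    (c : (mach N R h0 hR p₀).Conf) (hq : c.state = (lab R h0 (p :: ks), false)) (hs : Rep c s) :
    Go (3 * t - 1) c ks s' := by
  have hl := hp (self_mem_reach _ _)
  induction h generalizing ks c with
  | skip s => exact (go_stay hl hq hs rfl).mono (by omega)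
  | push s i b => exact go_push hl hq hs hb b (fun _ => rfl) fun _ => rfl
  | pop s i => exact (go_pop hl hq hs hb).mono (by omega)
  | query_yes s i j hi => exact absurd hi (by simp)
  | query_no s i j hi => exact go_push hl hq hs hb.2 false (fun _ => rfl) fun _ => rfl
  | @seq p q s s' s'' t t' e₁ e₂ ih₁ ih₂ =>
    have hq' : reach q ks ⊆ R := fun x hx => hp (Or.inr (Or.inr hx))
    have hp' : reach p (q :: ks) ⊆ R := fun x hx => hp (Or.inr (Or.inl hx))
    have t1 : ∀ {p s t s'}, Eval ∅ p s t s' → 1 ≤ t := fun h => by
      induction h <;> omega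
    have := t1 e₁
    have := t1 e₂
    exact (((go_stay hl hq hs rfl).trans fun d a b =>
      ih₁ hb.1 _ hp' d a b (hp' (self_mem_reach _ _))).trans fun d a b =>
        ih₂ hb.2 _ hq' d a b (hq' (self_mem_reach _ _))).mono (by omega)
  | @ite_nil p q r s s' t i hi _ ih =>
    have hp' : reach p ks ⊆ R := fun x hx => hp (Or.inr (Or.inl hx))
    exact ((go_stay (ks := p :: ks) hl hq hs (by simp [dl, hs.scan hb.1, hi])).trans fun d a b =>
      ih hb.2.1 _ hp' d a b (hp' (self_mem_reach _ _))).mono (by omega)
  | @ite_false p q r s s' t i hi _ ih =>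
    have hp' : reach q ks ⊆ R := fun x hx => hp (Or.inr (Or.inr (Or.inl hx)))
    exact ((go_stay (ks := q :: ks) hl hq hs (by simp [dl, hs.scan hb.1, hi])).trans fun d a b =>
      ih hb.2.2.1 _ hp' d a b (hp' (self_mem_reach _ _))).mono (by omega)
  | @ite_true p q r s s' t i hi _ ih =>
    have hp' : reach r ks ⊆ R := fun x hx => hp (Or.inr (Or.inr (Or.inr hx)))
    exact ((go_stay (ks := r :: ks) hl hq hs (by simp [dl, hs.scan hb.1, hi])).trans fun d a b =>
      ih hb.2.2.2 _ hp' d a b (hp' (self_mem_reach _ _))).mono (by omega)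
  | @loop_stop p s i hi =>
    exact (go_stay hl hq hs (by simp [dl, hs.scan hb.1, hi])).mono (by omega)
  | @loop_step p s s' s'' t t' i hi _ _ ih₁ ih₂ =>
    have hp' : reach p (.loop i p :: ks) ⊆ R := fun x hx => hp (Or.inr hx)
    obtain ⟨b, hbh⟩ : ∃ b, (s i).head? = some b := by
      cases hs : s i with
      | nil => exact absurd hs hi
      | cons b w => exact ⟨b, by simp⟩
    exact (((go_stay (ks := p :: .loop i p :: ks) hl hq hs
      (by simp [dl, hs.scan hb.1, hbh])).trans fun d a b =>
        ih₁ hb.2 _ hp' d a b (hp' (self_mem_reach _ _))).trans fun d a b =>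
          ih₂ hb _ hp d a b hl).mono (by omega)

/-- A program as a multitape Turing machine; the answer is the top bit of stack `1`. -/
theorem exists_tm (p : Prog) : ∃ A : TM, ∀ (x : Word) (t : ℕ) (σ : ℕ → Word),
    Runs ∅ p (start x []) t σ → ∃ s ≤ 3 * t + 3, A.act (A.conf x s) = none ∧
      ((A.conf x s).state ∈ A.accept ↔ (σ 1).head? = some true) := by
  obtain ⟨N, hN⟩ := exists_bounded p
  have hN' : bounded (N + 1 + 1) p := bounded_mono (by omega) hN
  have h0 : [] ∈ insert [] (reach p []) := Set.mem_insert _ _
  refine ⟨mach (N + 1) _ h0 ((reach_finite p []).insert []) p, fun x t σ ⟨t', ht, e⟩ => ?_⟩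
  obtain ⟨m, a, d, b, hq, hs⟩ := sim_tm (h0 := h0) (hR := (reach_finite p []).insert [])
    (p₀ := p) e hN' [] (fun y hy => Set.mem_insert_of_mem _ hy) (TM.init _ x) rfl fun i j => by
      rcases eq_or_ne i 0 with rfl | hi
      · simp only [TM.init, start]
        cases hj : x[j]? <;> simp [hj]
      · have : (i : ℕ) ≠ 0 := fun e => hi (Fin.ext e)
        simp [TM.init, start, hi, this]
  have h1 := hs.scan (i := 1) (by omega)
  by_cases hσ : (σ 1).head? = some true
  · have e1 := step_eq h0 hq (q := (lab _ h0 [], true)) (by rw [dl, if_pos (h1.trans hσ)])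
    refine ⟨m + 1, by omega, ?_⟩
    rw [TM.conf, iterate_succ_apply', b, e1]
    simp [TM.act, lab_of_mem h0, dl, hσ]
  · refine ⟨m, by omega, ?_⟩
    rw [TM.conf, b]
    simp [TM.act, hq, lab_of_mem h0, dl, h1, hσ]

end Vale.Agent.P310T43
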