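import Vale.Agent.P310Z.Interp
import Vale.Agent.Lib.PolyTime.Lists3

/-!
# P310: the refinement algorithm on lists, and its running time
-/

namespace Vale.Agent.P310T43

open Function Vale.Agent.Lib.PolyTime

/-- a tuple of vertices of one of the two graphs -/
abbrev It := Bool × List ℕ

/-- positions, vertices, input word -/
abbrev Cx := List ℕ × List ℕ × List Bool

/-- replace an entry -/
def upd (K : List ℕ) (u : It) (i y : ℕ) : It :=
  (u.1, K.map fun j => if j = i then y else u.2.getD j 0)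

/-- adjacency of two entries -/
def adj (c : Cx) (u : It) (i j : ℕ) : Bool :=
  c.2.2.getD ((bif u.1 then c.2.1.length * c.2.1.length else 0) +
    (u.2.getD i 0 * c.2.1.length + u.2.getD j 0)) false

/-- same atomic type -/
def atom (c : Cx) (p : It × It) : Bool :=
  c.1.all fun i => c.1.all fun j =>
    decide (decide (p.1.2.getD i 0 = p.1.2.getD j 0) = decide (p.2.2.getD i 0 = p.2.2.getD j 0)) &&
      decide (adj c p.1 i j = adj c p.2 i j)

/-- multiplicity -/
def cnt (c : Cx) (R : List (It × It)) (u w : It) (z : ℕ) : ℕ :=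
  (c.2.1.filter fun y => c.1.all fun i => decide ((upd c.1 u i y, upd c.1 w i z) ∈ R)).length

/-- one round -/
def ref (c : Cx) (R : List (It × It)) : List (It × It) :=
  R.filter fun p => c.2.1.all fun z => decide (cnt c R p.1 p.1 z = cnt c R p.2 p.1 z)

/-- all tuples of both graphs -/
def items (L : List (List ℕ)) : List It := L.map (fun t => (false, t)) ++ L.map fun t => (true, t)

/-- the relation after zero rounds -/
def rel0 (c : Cx) (L : List (List ℕ)) : List (It × It) :=
  ((items L).flatMap fun u => (items L).map fun v => (u, v)).filter (atom c)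

/-- multiplicity of a colour in one graph -/
def cntL (L : List (List ℕ)) (R : List (It × It)) (b : Bool) (z : List ℕ) : ℕ :=
  (L.filter fun y => decide (((b, y), (false, z)) ∈ R)).length

/-- the final test -/
def test (L : List (List ℕ)) (R : List (It × It)) : Bool :=
  L.all fun z => decide (cntL L R false z = cntL L R true z)

/-- the decision -/
def decC (c : Cx) (L : List (List ℕ)) : Bool := test L ((ref c)^[(rel0 c L).length] (rel0 c L))

/-- one more entry -/
def ext (V : List ℕ) (L : List (List ℕ)) : List (List ℕ) := L.flatMap fun t => V.map fun a => a :: t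

variable {α β γ : Type} [Enc α] [Enc β] [Enc γ]

theorem pt_eqB {f g : α → Bool} (hf : PT ∅ f) (hg : PT ∅ g) : PT ∅ fun a => decide (f a = g a) :=
  (hf.xor hg).not.congr fun a => by cases f a <;> cases g a <;> rfl

theorem eqL_iff (l l' : List ℕ) : (decide (l.length = l'.length) &&
    (l.zip l').all fun p => decide (p.1 = p.2)) = decide (l = l') := by
  induction l generalizing l' with
  | nil => cases l' <;> simp
  | cons a l ih =>
    cases l' with
    | nil => simp
    | cons b l' =>
      have := ih l'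
      by_cases h : a = b
      · simpa [h] using this
      · simp [h]

theorem pt_eqL {f g : α → List ℕ} (hf : PT ∅ f) (hg : PT ∅ g) :
    PT ∅ fun a => decide (f a = g a) :=
  ((PT.eqNat hf.length hg.length).and (PT.all (f := fun _ (p : ℕ × ℕ) => decide (p.1 = p.2))
    (hf.zip hg) (PT.eqNat PT.snd'.fst PT.snd'.snd))).congr fun _ => eqL_iff _ _

theorem pt_eqI {f g : α → It} (hf : PT ∅ f) (hg : PT ∅ g) : PT ∅ fun a => decide (f a = g a) :=
  (PT.decide_and (pt_eqB hf.fst hg.fst) (pt_eqL hf.snd hg.snd)).congr fun _ =>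
    decide_eq_decide.2 Prod.ext_iff.symm

theorem pt_mem {x : α → It × It} {l : α → List (It × It)} (hx : PT ∅ x) (hl : PT ∅ l) :
    PT ∅ fun a => decide (x a ∈ l a) :=
  (PT.mem' ((PT.decide_and (pt_eqI PT.fst'.fst PT.snd'.fst)
    (pt_eqI PT.fst'.snd PT.snd'.snd)).congr fun _ => decide_eq_decide.2 Prod.ext_iff.symm)
      hl hx).congr fun _ => decide_eq_decide.2 Iff.rfl

theorem pt_upd {K : α → List ℕ} {u : α → It} {i y : α → ℕ} (hK : PT ∅ K) (hu : PT ∅ u)
    (hi : PT ∅ i) (hy : PT ∅ y) : PT ∅ fun a => upd (K a) (u a) (i a) (y a) :=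
  hu.fst.pair (PT.map (f := fun a j => if j = i a then y a else (u a).2.getD j 0) hK
    (PT.ite (PT.eqNat PT.snd' (hi.comp PT.fst')) (hy.comp PT.fst')
      (PT.getD (hu.comp PT.fst').snd PT.snd' (PT.const 0))))

theorem pt_adj {c : α → Cx} {u : α → It} {i j : α → ℕ} (hc : PT ∅ c) (hu : PT ∅ u)
    (hi : PT ∅ i) (hj : PT ∅ j) : PT ∅ fun a => adj (c a) (u a) (i a) (j a) :=
  PT.getD hc.snd.snd ((PT.cond hu.fst (hc.snd.fst.length.mul hc.snd.fst.length) (PT.const 0)).add
    (((PT.getD hu.snd hi (PT.const 0)).mul hc.snd.fst.length).add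
      (PT.getD hu.snd hj (PT.const 0)))) (PT.const false)

theorem pt_atom : PT ∅ fun q : Cx × It × It => atom q.1 q.2 := by
  have c : PT ∅ fun r : ((Cx × It × It) × ℕ) × ℕ => r.1.1.1 := PT.fst'.fst.fst
  have u : PT ∅ fun r : ((Cx × It × It) × ℕ) × ℕ => r.1.1.2.1 := PT.fst'.fst.snd.fst
  have v : PT ∅ fun r : ((Cx × It × It) × ℕ) × ℕ => r.1.1.2.2 := PT.fst'.fst.snd.snd
  have i : PT ∅ fun r : ((Cx × It × It) × ℕ) × ℕ => r.1.2 := PT.fst'.snd
  have j : PT ∅ fun r : ((Cx × It × It) × ℕ) × ℕ => r.2 := PT.snd'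
  exact PT.all PT.fst'.fst (PT.all PT.fst'.fst.fst ((pt_eqB
    (PT.eqNat (PT.getD u.snd i (PT.const 0)) (PT.getD u.snd j (PT.const 0)))
    (PT.eqNat (PT.getD v.snd i (PT.const 0)) (PT.getD v.snd j (PT.const 0)))).and
    (pt_eqB (pt_adj c u i j) (pt_adj c v i j))))

theorem pt_cnt {c : α → Cx} {R : α → List (It × It)} {u w : α → It} {z : α → ℕ} (hc : PT ∅ c)
    (hR : PT ∅ R) (hu : PT ∅ u) (hw : PT ∅ w) (hz : PT ∅ z) :
    PT ∅ fun a => cnt (c a) (R a) (u a) (w a) (z a) := by
  have e : PT ∅ fun r : (α × ℕ) × ℕ => r.1.1 := PT.fst'.fst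
  exact (PT.filter (f := fun a y => (c a).1.all fun i =>
    decide ((upd (c a).1 (u a) i y, upd (c a).1 (w a) i (z a)) ∈ R a)) hc.snd.fst
    (PT.all (hc.comp PT.fst').fst (pt_mem
      ((pt_upd (hc.comp e).fst (hu.comp e) PT.snd' PT.fst'.snd).pair
        (pt_upd (hc.comp e).fst (hw.comp e) PT.snd' (hz.comp e))) (hR.comp e)))).length

theorem pt_ref {c : α → Cx} {R : α → List (It × It)} (hc : PT ∅ c) (hR : PT ∅ R) :
    PT ∅ fun a => ref (c a) (R a) := by
  have e : PT ∅ fun r : (α × It × It) × ℕ => r.1.1 := PT.fst'.fst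
  exact PT.filter (f := fun a p => (c a).2.1.all fun z =>
    decide (cnt (c a) (R a) p.1 p.1 z = cnt (c a) (R a) p.2 p.1 z)) hR
    (PT.all (hc.comp PT.fst').snd.fst (PT.eqNat
      (pt_cnt (hc.comp e) (hR.comp e) PT.fst'.snd.fst PT.fst'.snd.fst PT.snd')
      (pt_cnt (hc.comp e) (hR.comp e) PT.fst'.snd.snd PT.fst'.snd.fst PT.snd')))

theorem pt_items {L : α → List (List ℕ)} (hL : PT ∅ L) : PT ∅ fun a => items (L a) :=
  (PT.map (f := fun _ t => ((false, t) : It)) hL ((PT.const false).pair PT.snd')).append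
    (PT.map (f := fun _ t => ((true, t) : It)) hL ((PT.const true).pair PT.snd'))

theorem pt_rel0 {c : α → Cx} {L : α → List (List ℕ)} (hc : PT ∅ c) (hL : PT ∅ L) :
    PT ∅ fun a => rel0 (c a) (L a) :=
  PT.filter (f := fun a p => atom (c a) p)
    (PT.flatMap (f := fun a u => (items (L a)).map fun v => (u, v)) (pt_items hL)
      (PT.map (f := fun (r : α × It) v => (r.2, v)) (pt_items (hL.comp PT.fst'))
        (PT.fst'.snd.pair PT.snd')))
    (pt_atom.comp ((hc.comp PT.fst').pair PT.snd'))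

theorem pt_cntL {L : α → List (List ℕ)} {R : α → List (It × It)} (b : Bool) {z : α → List ℕ}
    (hL : PT ∅ L) (hR : PT ∅ R) (hz : PT ∅ z) : PT ∅ fun a => cntL (L a) (R a) b (z a) :=
  (PT.filter (f := fun a y => decide (((b, y), (false, z a)) ∈ R a)) hL
    (pt_mem (((PT.const b).pair PT.snd').pair ((PT.const false).pair (hz.comp PT.fst')))
      (hR.comp PT.fst'))).length

theorem pt_test {L : α → List (List ℕ)} {R : α → List (It × It)} (hL : PT ∅ L) (hR : PT ∅ R) :
    PT ∅ fun a => test (L a) (R a) :=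
  PT.all (f := fun a z => decide (cntL (L a) (R a) false z = cntL (L a) (R a) true z)) hL
    (PT.eqNat (pt_cntL false (hL.comp PT.fst') (hR.comp PT.fst') PT.snd')
      (pt_cntL true (hL.comp PT.fst') (hR.comp PT.fst') PT.snd'))

theorem iterate_sublist {δ : Type} {f : List δ → List δ} (hf : ∀ R, (f R).Sublist R) (R : List δ)
    (j : ℕ) : (f^[j] R).Sublist R := by
  induction j with
  | zero => exact List.Sublist.refl _
  | succ j ih => rw [iterate_succ_apply']; exact (hf _).trans ih

theorem pt_decC {c : α → Cx} {L : α → List (List ℕ)} (hc : PT ∅ c) (hL : PT ∅ L) :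
    PT ∅ fun a => decC (c a) (L a) :=
  pt_test hL (PT.iterate' (step := fun a R => ref (c a) R) (pt_rel0 hc hL).length
    (PBd.length (pt_rel0 hc hL)) (pt_rel0 hc hL) (pt_ref (hc.comp PT.fst') PT.snd')
    (pt_rel0 hc hL).pbd fun _ j _ =>
      esize_le_of_sublist (iterate_sublist (fun _ => List.filter_sublist) _ j))

theorem pt_ext {V : α → List ℕ} {L : α → List (List ℕ)} (hV : PT ∅ V) (hL : PT ∅ L) :
    PT ∅ fun a => ext (V a) (L a) :=
  PT.flatMap (f := fun a t => (V a).map fun b => b :: t) hL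
    (PT.map (f := fun (r : α × List ℕ) b => b :: r.2) (hV.comp PT.fst')
      (PT.cons PT.snd' PT.fst'.snd))

/-- the decision, from the input word and the list of all tuples -/
def dec (x : Raw) (T : List (List ℕ)) : Bool :=
  decC (List.range (T.headD []).length, List.range (P310Z.unum x.w.length), x.w) T

theorem pt_unum {x : α → Raw} (hx : PT ∅ x) : PT ∅ fun a => P310Z.unum (x a).w.length :=
  (PT.find? (f := fun a (n : ℕ) => decide (2 * (n * n) = (x a).w.length))
    (PT.range ((PT.rawLength hx).add (PT.const 1)) (hx.pbd.add (PBd.const 1)))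
    (PT.eqNat (PT.double (PT.snd'.mul PT.snd'))
      ((PT.rawLength hx).comp PT.fst'))).optGetD (PT.const 0)

theorem pt_rangeN {x : α → Raw} (hx : PT ∅ x) :
    PT ∅ fun a => List.range (P310Z.unum (x a).w.length) :=
  PT.range (pt_unum hx) (hx.pbd.mono fun _ => P310Z.unum_le _)

theorem pt_dec : PT ∅ fun p : Raw × List (List ℕ) => dec p.1 p.2 :=
  pt_decC ((PT.range (PT.headD PT.snd' PT.nil).length
    (PBd.length (A := ∅) (PT.headD PT.snd' PT.nil))).pair
      ((pt_rangeN PT.fst').pair (PT.listOfRaw PT.fst'))) PT.snd'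

end Vale.Agent.P310T43
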